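import Vale.Agent.P372.Exact2

/-!
An exact criterion for positive key, and a consequence for collective observables.
-/

open Matrix
open scoped ComplexOrder Kronecker
open Vale.Agent.P372

namespace Vale.Agent.Results.P372.ExactCriterion

theorem result :
    (∀ (dA dB : ℕ) (ρ : Matrix (Fin dA × Fin dB) (Fin dA × Fin dB) ℂ),
      IsState ρ → (HasPositiveKey ρ ↔ CopiesTest ρ)) ∧
    (∀ (dA dB r : ℕ) (ρ : Matrix (Fin dA × Fin dB) (Fin dA × Fin dB) ℂ)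
      (G : Matrix (Fin dA × Fin dB) (Fin r) ℂ), IsState ρ → G * Gᴴ = ρ →
      (HasPositiveKey ρ ↔ ∃ n ε, 0 < n ∧ ε < 1 / 5 ∧ OneBitWithError G n ε) ∧
      (HasPositiveKey ρ → ∀ ε : ℝ, 0 < ε → ∃ n, 0 < n ∧ OneBitWithError G n ε)) ∧
    (∀ (dA dB : ℕ) (ρ : Matrix (Fin dA × Fin dB) (Fin dA × Fin dB) ℂ),
      IsState ρ → HasPositiveKey ρ → ∃ δ : ℝ, 0 < δ ∧
        ∀ ρ', IsState ρ' → (∀ i j, ‖ρ' i j - ρ i j‖ < δ) → HasPositiveKey ρ') ∧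
    (∀ (dA dB k l : ℕ) (ρ : Matrix (Fin dA × Fin dB) (Fin dA × Fin dB) ℂ)
      (a₀ a₁ : Matrix (Fin k) (Fin dA) ℂ) (b₀ b₁ : Matrix (Fin l) (Fin dB) ℂ)
      (W : Matrix (Fin k × Fin l) (Fin k × Fin l) ℂ),
      IsState ρ → (1 - W * Wᴴ).PosSemidef →
      (ρ * ((a₀ᴴ * a₀) ⊗ₖ (b₀ᴴ * b₀))).trace.re * (ρ * ((a₀ᴴ * a₀) ⊗ₖ (b₁ᴴ * b₁))).trace.re
          * (ρ * ((a₁ᴴ * a₁) ⊗ₖ (b₀ᴴ * b₀))).trace.re * (ρ * ((a₁ᴴ * a₁) ⊗ₖ (b₁ᴴ * b₁))).trace.re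
        < ‖(ρ * ((a₀ ⊗ₖ b₀)ᴴ * W * (a₁ ⊗ₖ b₁))).trace‖ ^ 4 →
      HasPositiveKey ρ) ∧
    (∀ (dA dB : ℕ) (ρ : Matrix (Fin dA × Fin dB) (Fin dA × Fin dB) ℂ)
      (X : Matrix (Fin dA) (Fin dA) ℂ) (Y : Matrix (Fin dB) (Fin dB) ℂ)
      (H : Matrix (Fin dA × Fin dB) (Fin dA × Fin dB) ℂ),
      IsState ρ → X.IsHermitian → Y.IsHermitian → H.IsHermitian →
      4 * (ρ * (H * H)).trace.re
          * (((ρ * ((X * X) ⊗ₖ 1)).trace.re - (ρ * (X ⊗ₖ 1)).trace.re ^ 2)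
            + ((ρ * (1 ⊗ₖ (Y * Y))).trace.re - (ρ * (1 ⊗ₖ Y)).trace.re ^ 2))
        < (ρ * (Complex.I • ((X ⊗ₖ 1 + 1 ⊗ₖ Y) * H - H * (X ⊗ₖ 1 + 1 ⊗ₖ Y)))).trace.re ^ 2 →
      HasPositiveKey ρ) := by
  refine ⟨fun _ _ _ hρ => key_iff_test hρ, fun dA dB r ρ G hρ hG => ⟨⟨fun h => ?_, ?_⟩,
    fun h ε hε => oneBit_of_key hG h hε⟩, fun _ _ _ hρ h => key_open hρ h,
    fun _ _ _ _ _ a₀ a₁ b₀ b₁ W hρ hW h => distill hρ a₀ a₁ b₀ b₁ W hW h,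
    fun _ _ _ _ _ _ hρ hX hY hH h => qfi hρ hX hY hH h⟩
  · obtain ⟨n, hn, h1⟩ := oneBit_of_key hG h (ε := 1 / 10) (by norm_num)
    exact ⟨n, 1 / 10, hn, by norm_num, h1⟩
  · rintro ⟨n, ε, hn, hε, h⟩
    exact key_of_test hρ (hG ▸ test_of_oneBit hn hε h)

end Vale.Agent.Results.P372.ExactCriterion
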