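import Vale.Agent.P372.Kernel2

/-!
Positive key for states satisfying a local criterion, in particular for all states with an
unextendible product set in the kernel when one side is a qutrit or the range is highly entangled.
-/

open Matrix
open scoped ComplexOrder Kronecker
open Vale.Agent.P372

namespace Vale.Agent.Results.P372.UnextendibleKey

theorem result :
    (∀ (dA dB : ℕ) (ρ : Matrix (Fin dA × Fin dB) (Fin dA × Fin dB) ℂ)
      (X : Matrix (Fin dA) (Fin dA) ℂ) (Q : Matrix (Fin dB) (Fin dB) ℂ),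
      IsState ρ → X.IsHermitian → Q.PosSemidef → ρ * (X ⊗ₖ Q) * ρ = 0 →
      (∀ v, ((1 : Matrix (Fin dA) (Fin dA) ℂ) ⊗ₖ Q) *ᵥ (ρ *ᵥ v) = 0 → ρ *ᵥ v = 0) →
      (∃ Y : Matrix (Fin dB) (Fin dB) ℂ, Y.IsHermitian ∧ (ρ * (X ⊗ₖ Y)).trace.re ≠ 0) →
      HasPositiveKey ρ) ∧
    (∀ (dA N : ℕ) (ρ : Matrix (Fin dA × Fin 3) (Fin dA × Fin 3) ℂ)
      (a : Fin N → Fin dA → ℂ) (b : Fin N → Fin 3 → ℂ),
      IsState ρ → (∀ l, ρ *ᵥ prodVec (a l) (b l) = 0) → Unextendible a b →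
      ¬ IsSeparable ρ ∧ HasPositiveKey ρ) ∧
    (∀ (dA dB N : ℕ) (ρ : Matrix (Fin dA × Fin dB) (Fin dA × Fin dB) ℂ)
      (a : Fin N → Fin dA → ℂ) (b : Fin N → Fin dB → ℂ),
      2 ≤ dB → IsState ρ → (∀ l, ρ *ᵥ prodVec (a l) (b l) = 0) → Unextendible a b →
      (∀ v, ρ *ᵥ v ≠ 0 → dB - 2 < (coeffMatrix (ρ *ᵥ v)).rank) →
      ¬ IsSeparable ρ ∧ HasPositiveKey ρ) ∧
    (IsState tilesState ∧ partialTranspose tilesState = tilesState ∧
      ¬ IsSeparable tilesState ∧ HasPositiveKey tilesState) := by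
  refine ⟨fun dA dB ρ X Q hρ hX hQ hinv hker hY => criterion hρ hX hQ hinv hker hY,
    fun dA N ρ a b hρ hk hu => ⟨not_separable hk hu, unextendible_key hρ hk hu⟩,
    fun dA dB N ρ a b hd hρ hk hu hR =>
      ⟨not_separable hk hu, unextendible_key' hd hρ hk hu hR⟩, ?_⟩
  obtain ⟨hs, hpt, hk, hu⟩ := tiles_facts
  exact ⟨hs, hpt, not_separable hk hu, unextendible_key hs hk hu⟩

end Vale.Agent.Results.P372.UnextendibleKey
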