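import Vale.Agent.P372.Zero.Main

/-!
An entangled state from which no secret key can be distilled.
-/

open Matrix
open scoped ComplexOrder Kronecker
open Vale.Agent.P372

namespace Vale.Agent.Results.P372.ZeroKeyEntangled

theorem result : ∃ (dA dB : ℕ) (ρ : Matrix (Fin dA × Fin dB) (Fin dA × Fin dB) ℂ),
    IsState ρ ∧ ¬ IsSeparable ρ ∧
    (∃ (r : ℕ) (G : Matrix (Fin dA × Fin dB) (Fin r) ℂ), G * Gᴴ = ρ) ∧
    ¬ HasPositiveKey ρ ∧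
    ∀ (r : ℕ) (G : Matrix (Fin dA × Fin dB) (Fin r) ℂ), G * Gᴴ = ρ →
      (∀ (n ℓ : ℕ) (ε : ℝ), 0 < n → 0 < ℓ → ProtocolWithError G n ℓ ε → 1 / 5 ≤ ε) ∧
      ∀ c : ℝ, 0 < c → ∃ ε : ℝ, 0 < ε ∧
        ∀ M : ℕ, ∃ n, M ≤ n ∧ ∀ ℓ : ℕ, c * n ≤ ℓ → ¬ ProtocolWithError G n ℓ ε :=
  Zero.exists_zero_key

end Vale.Agent.Results.P372.ZeroKeyEntangled
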